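/-!
# Row 98 (S0129): `dim μ = min (1, h/χ)` for every self-similar measure on `ℝ` — the proof in words

Notation.  *Model*: reveal the ratio ("class" `ω_j`) of every letter; `ν_ω` = law of the translation part
`X = ∑ c(ω<j) t(w_j)` given `ω`.  `Hs s m` = entropy of `m` at scale `s` averaged over the shift of the grid.
`e = lim E Hs_{|c_n|}(ν_ω)/n`, `h_c = lim E H(ν_ω)/n`.  Passing to blocks of `b` letters, `h_c ≥ b h - O(log b)`.
`dim μ ≥ e/χ` (annealed `L^q` bound, `Lq`, `DimLow`), `dim μ ≤ min(1, h/χ)` (`DimUp`).  So it suffices to prove

  **Core**: `e < χ ⟹ h_c ≤ e`.

## Soft part
* `Defic`: `E (Hs s - Hs (N s))(ν_ω) ≤ (e/χ) log N + C` for all levels and scales (monotonicity under convolution).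
* `InfUp`, `Inf_low`: the information about `n` letters contained in a long word at scale `s` is `≤ e n + C` for all
  `s`, and `≥ e n - o(n)` at `s ≈ e^{-χ n}`; so only `o(n)` is gained at the scales below `e^{-χ n}`.
* `TreeEx`: every finite law on `ℝ` has an adapted binary tree: a node of diameter `D` splits into a light part of mass
  `v ≤ 1/2` and a heavy part, diameters `≤ 7D/8`, half of the mass is `D/8`-far from the light part and all but `2√v` is
  `D/(24 log 1/v)`-far.  `H(ν) = ∑ nodes P(node) h(v)`.
* `Gain`, `BG`: convolving a law that is not saturated at scale `≈ D` with a fair two-point law of width `≈ D` gains entropy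
  (Kaimanovich–Vershik + smoothness of the binomial law).  Hence (`Single`) `E ∑_{D < e^{-χ n}} P v = o(n)` and (`Multi`) the
  normalised sums `E ∑_{D ∈ G_j} P v / n_j` of different levels `n_j` add up to `O(1)` if the sets `G_j` are separated.
* `Engine`: if at levels `n_j = n₀ 2^{a j}`, `j ≤ C₁ a`, the distances `≥ s` lie in `R` windows of log-length `n_j 2^a`, then at some
  level the partition of `ν_ω` at scale `s` has entropy `≤ (e + ε) n_j`.  (Windows near those of the previous level have total length
  `O(R n_j)`: use `Single`; the others lose only `log (R 2^a)`: use `Multi`.)

## Two multiplicatively independent ratios (`Rank2`)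
Cramer over `ℚ`: only `n^K` scales occur, so nodes with `v < n^{-2K-2}` are negligible; nodes with `v > v₀` are negligible by `Single`.
Reveal the coins of all other nodes (`prune`).  For a rare node, a random buffer between the block and the tail dilates the tail by
`e^{xγ}`, `x` nearly uniform in `[0, X)`, `Xγ ≈ 1`, `X = n^{1/8}` (Dirichlet picks the good `n`).  A Marstrand-type count shows that the
value at scale `D v^κ` reveals a fixed fraction of `h(v)`.  Since only `O(δ n)` information is available, rare nodes carry `o(n)` entropy.

## Ratios `± z^k` (`Rank1`)
`X_u - X_v = ⟨t, q(z)⟩`, `q ∈ ℤ[X]^ι` with bounded coefficients.  Case I (determinants of such vectors are not too small at `z`):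
Cramer gives `card ι` windows and `Engine` gives Core; this holds for a.e. `z`.  Case II: a tiny determinant gives an algebraic `η` of
Mahler measure `poly(n)` extremely close to `z`; Cramer for the `J`-jets at `η` and Liouville's inequality give `card ι * J` windows down
to the scale `|z - η|^J`; `Engine` gives classes of entropy `≤ (e+ε) n` whose relations are `≤ |z-η|^J`; their determinants vanish to order
`J` at `η`, hence are `≤ C 2^{-J}` near `z`.  Let `J → ∞` (compactness).  If the limit relations are annihilated at `z` by a `t*` not
parallel to `t`, write `t = t' + t''` with smaller supports and use induction; otherwise `t` deforms analytically to `t₀(z₀)` at a generic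
`z₀` (Case I) with no new exact relations.  In both cases the classes nearly determine the blocks of systems for which Core is known, so
their entropy is at least `h_c n - o(n)` (`Peel`): `h_c ≤ e + ε`.
-/
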